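import Vale.Agent.P216.H882D.PowX
import Vale.Agent.P216.H941D.PowL

/-!
# P216-D, LIFTW: `LiftD` (`B609/GoalsD`)

All global classes of parity `q` lift to the circle theory, from the weights of the power map
`γ ↦ γ (m ·)`, `m ≠ 0, 1` in `ZMod p`.
-/

open Set Topology
open Vale.Agent.P216.H288 Vale.Agent.P216.H494 Vale.Agent.P216.L250

namespace Vale.Agent.P216.B633

open AS GM B64 B609 DV706 T695

/-- **LIFTW** -/
theorem liftD : LiftD := by
  intro M _ _ G hD p hpp h2 hf q e B m X hq hB hm0 hm1 n hn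
  obtain ⟨a, ha⟩ := exists_regCof (exists_reg G hD)
  have hm : 0 < m := Nat.pos_of_ne_zero fun h => hm0 (by rw [h, Nat.cast_zero])
  have hpm : ¬ p ∣ m := fun h => hm0 ((CharP.cast_eq_zero_iff (ZMod p) p m).2 h)
  refine (xiso G hD (ZMod p) hpp.out h2 hf).liftW X ha hq hB hm0 hm1 (fun s hs => ?_) n hn
  obtain ⟨W, hW⟩ := H941D.exists_wop_pow G hD (ZMod p) hpp.out h2 hf hm hpm hs
  exact ⟨W, fun n x => hW n x⟩

end Vale.Agent.P216.B633
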