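import Vale.Agent.P216.B633.WOp

set_option linter.unusedSectionVars false

/-!
# P216-D: lifts from weights (`LIFT-W1`)

`S.WOp α δ φ s` with arbitrary scalars `α`, `δ` (for the `m`-th power map `α = m⁻¹`, `δ = m`):
if every global class `x` of degree `e` is an eigenvector with eigenvalue `σ e` then the classes of
degree `n + 1` lift, provided `α ^ m * σ e ≠ δ * σ (n + 1)` whenever `e + 2 m = n`.
-/

open Module LinearMap Set

namespace Vale.Agent.P216.B633

open Vale.Agent.P216.AS (USeq)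
open Vale.Agent.P216.T695
open Vale.Agent.P216.B64 GM L250
open Vale.Agent.P216.Tight923 (Inv)

namespace TSys

variable {k : Type} [Field k] {p : ℕ} {crit : Set ℝ} {S : TSys k p crit}

/-- composition with a scalar -/
theorem WOp.keyW {α δ : k} {φ s : ℝ} (W : S.WOp α δ φ s) (hs : s ≤ φ)
    {σ : ℕ → k} (hB : ∀ e (x : S.Hi e), W.B e (S.rH φ e x) = σ e • S.rH s e x) (m n : ℕ)
    {y : S.F φ n} (hy : y ∈ S.Dg φ m n) :
    W.A n y - (α ^ m * σ (n - 2 * m)) • (S.TF n).ρ s φ hs y ∈ Dv (S.G s).u (m + 1) n := by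
  induction m generalizing n with
  | zero =>
    obtain ⟨x, hx⟩ : (S.G φ).π n y ∈ LinearMap.range (S.rH φ n) := hy
    have h1 : (S.G s).π n (W.A n y - (α ^ 0 * σ (n - 2 * 0)) • (S.TF n).ρ s φ hs y) = 0 := by
      rw [pow_zero, one_mul, map_sub, map_smul, ← W.hπ, ← S.ρ_π, ← hx, hB, (S.TH n).ρ_ev,
        mul_zero, Nat.sub_zero, sub_self]
    generalize W.A n y - (α ^ 0 * σ (n - 2 * 0)) • (S.TF n).ρ s φ hs y = z at h1
    rcases n with _ | _ | n
    · have : z = 0 := (S.G s).inj0 (by rw [h1, map_zero])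
      rw [this]; exact Submodule.zero_mem _
    · have : z = 0 := (S.G s).inj1 (Eq.trans h1 (map_zero ((S.G s).π 1)).symm)
      rw [this]; exact Submodule.zero_mem _
    · obtain ⟨w, rfl⟩ := ((S.G s).ex3 n z).1 h1
      exact ⟨w, Submodule.mem_top, rfl⟩
  | succ m ih =>
    rcases n with _ | _ | n
    · have : y = 0 := hy
      rw [this, map_zero, map_zero, smul_zero, sub_zero]; exact Submodule.zero_mem _
    · have : y = 0 := hy
      rw [this, map_zero, map_zero, smul_zero, sub_zero]; exact Submodule.zero_mem _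
    · obtain ⟨w, hw, rfl⟩ := hy
      have h1 := Submodule.smul_mem _ α (ih n hw)
      refine ⟨_, h1, ?_⟩
      rw [W.hu, S.ρ_u, map_smul, map_sub, map_smul, smul_sub, smul_smul, pow_succ',
        show n + 2 - 2 * (m + 1) = n - 2 * m by omega, mul_assoc]

/-- **lifts from weights, level by level** -/
theorem surjective_of_wopW {a : ℕ → ℝ} (ha : RegCof crit a) {α δ : k} (σ : ℕ → k)
    (hst : ∀ t, 0 ≤ t → ∃ T, ∃ h : t ≤ T, ∀ e (x : S.H T e),
      (S.TH e).ρ t T h x ∈ LinearMap.range (S.rH t e))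
    (hW : ∀ s, 0 ≤ s → ∃ φ, s ≤ φ ∧ ∃ W : S.WOp α δ φ s, ∀ e (x : S.Hi e),
      W.B e (S.rH φ e x) = σ e • S.rH s e x) (n : ℕ)
    (hne : ∀ m e, e + 2 * m = n → α ^ m * σ e ≠ δ * σ (n + 1)) :
    Function.Surjective (S.πi (n + 1)) := by
  intro x
  apply ((S.Gi ha).ex1 n x).1
  change S.di n x = 0
  have main : ∀ m s, 0 ≤ s → S.rF s n (S.di n x) ∈ Dv (S.G s).u m n := by
    intro m
    induction m with
    | zero => exact fun _ _ => Submodule.mem_top
    | succ m ih =>
      intro s hs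
      obtain ⟨φ, hφ, W, hB⟩ := hW s hs
      obtain ⟨T, hT, hstT⟩ := hst φ (hs.trans hφ)
      have h1 := ih T (hs.trans (hφ.trans hT))
      rcases Nat.lt_or_ge n (2 * m) with h | h
      · rw [Dv_eq_bot _ _ _ h] at h1
        have h3 : S.rF T n (S.di n x) = 0 := h1
        rw [← (S.TF n).ρ_ev s T (hφ.trans hT), h3, map_zero]
        exact Submodule.zero_mem _
      · have h3 := ρ_mem_Dg hT hstT m n h1
        rw [(S.TF n).ρ_ev] at h3
        have h4 := W.keyW hφ hB m n h3
        rw [(S.TF n).ρ_ev] at h4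
        change W.A n (S.rF φ n (S.di n x)) - (α ^ m * σ (n - 2 * m)) • S.rF s n (S.di n x) ∈ _ at h4
        rw [rF_di, W.hd, hB, map_smul, ← rF_di, smul_smul, ← sub_smul] at h4
        have h5 : δ * σ (n + 1) - α ^ m * σ (n - 2 * m) ≠ 0 := fun h0 =>
          hne m (n - 2 * m) (by omega) (by linear_combination -h0)
        have h6 := Submodule.smul_mem _ (δ * σ (n + 1) - α ^ m * σ (n - 2 * m))⁻¹ h4
        rwa [smul_smul, inv_mul_cancel₀ h5, one_smul] at h6
  refine (S.TF n).ext fun t => ?_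
  change S.rF t n (S.di n x) = S.rF t n 0
  have h1 := main (n + 1) (max t 0) (le_max_right _ _)
  rw [Dv_eq_bot _ _ _ (by omega)] at h1
  have h3 : S.rF (max t 0) n (S.di n x) = 0 := h1
  rw [map_zero, ← (S.TF n).ρ_ev t (max t 0) (le_max_left _ _), h3, map_zero]

end TSys

end Vale.Agent.P216.B633
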