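import Vale.Agent.P216.H882D.LiftW
import Vale.Agent.P216.B633.PRho
import Vale.Agent.P216.B609.GoalsD

/-!
# P216-D: the power maps `g ↦ g(m ·)` on the sublevels of the free loop space; the lifts

* `XIso.liftW`: lifts from the weights of a power map (`XGenD`) and an operator of the levels.
* `isMap_pow`, `pow_rot`: the power map on the `GSys` with the trivial double cover.
-/

open Set Topology
open Module (finrank)
open Vale.Agent.P216.H288 Vale.Agent.P216.H494 Vale.Agent.P216.L250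

namespace Vale.Agent.P216.B633

open AS GM B64 B609 DV706 T695

namespace XIso

variable {M : Type} [MetricSpace M] {q : ℕ} {e : ℕ → ℕ} {B : ℝ} {m : ℕ} {k : Type} [Field k]
  {p : ℕ} {crit : Set ℝ} {S : TSys k p crit} (Φ : XIso M S) (X : XGenD M q e B m k)

include Φ X

/-- the generator of the global classes of degree `i` -/
noncomputable def gw (i : ℕ) : S.Hi i := ⟨fun t => (Φ.φ t i).symm (X.g i t), fun s t h => by
  apply (Φ.φ s i).injective
  rw [Φ.nat, LinearEquiv.apply_symm_apply, LinearEquiv.apply_symm_apply, X.res_g]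
  exact h⟩

theorem φ_gw (t : ℝ) (i : ℕ) : Φ.φ t i (S.rH t i (Φ.gw X i)) = X.g i t :=
  (Φ.φ t i).apply_symm_apply _

/-- stable images are in the line of the generator -/
theorem spanW {t T : ℝ} (ht : 0 ≤ t) (hB : 0 < B) (h : t ≤ T) (hT : t + B ≤ T) {i : ℕ}
    (x : S.H T i) : ∃ c : k, (S.TH i).ρ t T h x = c • S.rH t i (Φ.gw X i) := by
  obtain ⟨c, hc⟩ := X.span i t ht (XL_mono (by linarith))
    (hres k (XL_mono hT) i (Φ.φ T i x))
  refine ⟨c, (Φ.φ t i).injective ?_⟩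
  rw [Φ.nat, map_smul, φ_gw, ← hc]
  exact (AS.res_res _ _ _).symm

theorem ρ_gw {s t : ℝ} (h : s ≤ t) (i : ℕ) :
    (S.TH i).ρ s t h (S.rH t i (Φ.gw X i)) = S.rH s i (Φ.gw X i) := (S.TH i).ρ_ev s t h _

/-- **every global class is a multiple of the generator** -/
theorem exists_smulW (hB : 0 < B) (i : ℕ) (x : S.Hi i) : ∃ c : k, x = c • Φ.gw X i := by
  have h1 : ∀ t, 0 ≤ t → ∃ c : k, S.rH t i x = c • S.rH t i (Φ.gw X i) := by
    intro t ht
    obtain ⟨c, hc⟩ := Φ.spanW X ht hB (T := t + B) (by linarith) le_rfl (S.rH (t + B) i x)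
    exact ⟨c, by rw [← hc, (S.TH i).ρ_ev]⟩
  by_cases hz : ∀ t, 0 ≤ t → S.rH t i (Φ.gw X i) = 0
  · refine ⟨0, (S.TH i).ext fun t => ?_⟩
    obtain ⟨c, hc⟩ := h1 (max t 0) (le_max_right _ _)
    rw [hz _ (le_max_right _ _), smul_zero] at hc
    change S.rH t i x = S.rH t i _
    rw [zero_smul, map_zero, ← (S.TH i).ρ_ev t (max t 0) (le_max_left _ _) x, hc, map_zero]
  · push Not at hz
    obtain ⟨t₀, ht₀, hne⟩ := hz
    obtain ⟨c, hc⟩ := h1 t₀ ht₀
    refine ⟨c, (S.TH i).ext fun t => ?_⟩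
    obtain ⟨c', hc'⟩ := h1 (max t t₀) (ht₀.trans (le_max_right _ _))
    have h2 : c' • S.rH t₀ i (Φ.gw X i) = c • S.rH t₀ i (Φ.gw X i) := by
      rw [← hc, ← (S.TH i).ρ_ev t₀ (max t t₀) (le_max_right _ _) x, hc', map_smul, ρ_gw]
    have h3 : c' = c := smul_left_injective k hne h2
    change S.rH t i x = S.rH t i (c • Φ.gw X i)
    rw [map_smul, ← (S.TH i).ρ_ev t (max t t₀) (le_max_left _ _) x, hc', h3, map_smul, ρ_gw]

/-- stable classes are global -/
theorem stableW (hB : 0 < B) {t : ℝ} (ht : 0 ≤ t) : ∃ T, ∃ h : t ≤ T, ∀ e (x : S.H T e),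
    (S.TH e).ρ t T h x ∈ LinearMap.range (S.rH t e) := by
  refine ⟨t + B, by linarith, fun e x => ?_⟩
  obtain ⟨c, hc⟩ := Φ.spanW X ht hB (by linarith) le_rfl x
  exact ⟨c • Φ.gw X e, by rw [map_smul, hc]⟩

/-- **Lifts from the weights of a power map.** -/
theorem liftW {a : ℕ → ℝ} (ha : RegCof crit a) (hq : q < 2) (hB : 0 < B) (hm0 : (m : k) ≠ 0)
    (hm1 : (m : k) ≠ 1)
    (hW : ∀ s : ℝ, 0 ≤ s → ∃ W : S.WOp (m : k)⁻¹ (m : k) (m * s) s,
      ∀ n x, Φ.φ s n (W.B n x) = hpull k (umap_iter m s) n (Φ.φ (m * s) n x))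
    (n : ℕ) (hn : n % 2 = q) : Function.Surjective (S.πi n) := by
  rcases n with _ | n
  · exact (S.Gi ha).surj0
  refine S.surjective_of_wopW ha (α := (m : k)⁻¹) (δ := (m : k)) (wtD k q m)
    (fun t ht => Φ.stableW X hB ht) (fun s hs => ?_) n fun r e' he h => ?_
  · obtain ⟨W, hWB⟩ := hW s hs
    have hm : 0 < m := Nat.pos_of_ne_zero fun h => hm0 (by rw [h, Nat.cast_zero])
    have hm2 : (1 : ℝ) ≤ m := by exact_mod_cast hm
    refine ⟨m * s, le_mul_of_one_le_left hs hm2, W, fun e' x => ?_⟩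
    obtain ⟨c, rfl⟩ := Φ.exists_smulW X hB e' x
    rw [map_smul, map_smul, map_smul, smul_comm]
    congr 1
    apply (Φ.φ s e').injective
    rw [hWB, map_smul, φ_gw, φ_gw, X.wt]
  · have h1 : r + (e' + 1 - q) / 2 = (n + 1 + 1 - q) / 2 := by omega
    unfold wtD at h
    rw [← pow_add, h1] at h
    have h2 : ((m : k)⁻¹) ^ ((n + 1 + 1 - q) / 2) ≠ 0 := pow_ne_zero _ (inv_ne_zero hm0)
    exact hm1 (mul_right_cancel₀ h2 (h.symm.trans (one_mul _).symm))

end XIso

/-! ### The power map on the `GSys` with the trivial double cover -/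

section S0

variable {M : Type} [MetricSpace M] [CompactSpace M] (G : GeoList M)
  (hD : DescentStmt (Hol.triv : Hol M) G)

theorem isMap_pow {m : ℕ} (hm : 0 < m) (s : ℝ) :
    IsMap (fun _ : Unit => (S0 G hD).τ) (fun _ : Unit => (S0 G hD).τ) ((S0 G hD).X s)
      ((S0 G hD).X (m * s)) (liftR (iter m)) :=
  isMap_liftR G hD (isometry_iter hm).continuous.continuousOn (umap_iter m s).mapsX

/-- `ψ_m ∘ R_(m a) = R_a ∘ ψ_m` -/
theorem pow_rot (m : ℕ) (a : ℝ) (x : LM M × ℂ) :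
    liftR (iter m) ((R0 G hD).R (m * a) x) = (R0 G hD).R a (liftR (iter m) x) :=
  Prod.ext (rot_iter a m x.1).symm rfl

end S0

end Vale.Agent.P216.B633
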